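import Vale.Agent.P092NW.Ind
import Vale.Agent.P092CR.Main
import Vale.Agent.P092OM.Main

/-!
P092 (helper44), block B4, UB: stationary sequences, moves.
-/

set_option linter.all false

open Filter Topology Asymptotics MeasureTheory
open scoped InnerProductSpace Pointwise

namespace Vale.Agent.P092UU

open Vale.Agent.P092WN Vale.Agent.P092NW Vale.Agent.P092CR Vale.Agent.P092OM

variable {G Γ H H₀ : Type} [Group G] [Group Γ] [NormedAddCommGroup H]
  [InnerProductSpace ℂ H] [CompleteSpace H] [NormedAddCommGroup H₀] [InnerProductSpace ℂ H₀]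
  {S : Sys G Γ H H₀} {len : Γ → ℝ} {r' : ℕ} {gap : Fin r' → Γ → ℝ} {C : ℝ} {T : ℝ → ℝ}
  {A : ℝ → Set Γ} {b : ℕ → G} {t w q J : ℕ → ℝ} {n : ℕ → ℕ}

theorem exists_sub {ι : Type} [Finite ι] {P : ℕ → ι → Prop} (h : ∀ k, ∃ i, P k i) :
    ∃ (i : ι) (φ : ℕ → ℕ), Tendsto φ atTop atTop ∧ ∀ k, P (φ k) i := by
  obtain ⟨i, hi⟩ : ∃ i, ∃ᶠ k in atTop, P k i := by
    by_contra hc
    simp only [not_exists, not_frequently] at hc
    obtain ⟨k, hk⟩ := (eventually_all.2 hc).exists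
    obtain ⟨i, hi⟩ := h k
    exact hk i hi
  obtain ⟨φ, h1, h2⟩ := extraction_of_frequently_atTop hi
  exact ⟨i, φ, h1.tendsto_atTop, h2⟩

theorem exists_piece {ι : Type} [Fintype ι] (s : Finset ι) {E : ι → Set Γ} {F : Set Γ}
    (h : F ⊆ ⋃ i ∈ s, E i) {v : H} {c : ℝ} (hc : 0 < c) (h1 : c ≤ ‖Pr S F v‖) :
    ∃ i ∈ s, c / (Fintype.card ι + 1) ≤ ‖Pr S (E i) v‖ := by
  by_contra hn
  push Not at hn
  have h2 := (h1.trans ((Pr_mono S h v).trans (Pr_biUnion_le S s E v))).trans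
    (Finset.sum_le_card_nsmul _ _ _ fun i hi => (hn i hi).le)
  have h3 : (s.card : ℝ) ≤ Fintype.card ι := Nat.cast_le.2 (Finset.card_le_univ s)
  rw [nsmul_eq_mul, ← mul_div_assoc, le_div_iff₀ (by positivity)] at h2
  nlinarith

theorem exists_win {M : ℕ → ℝ} {u : ℝ} {m : ℕ} (hm : 0 < m) (h0 : Real.exp (-u) < M 0)
    (h1 : M m ≤ 1) : ∃ i < m, M (i + 1) ≤ Real.exp (u / m) * M i := by
  by_contra hn
  push Not at hn
  have h2 : ∀ i ≤ m, Real.exp (i * (u / m)) * M 0 ≤ M i := fun i hi => by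
    induction i with
    | zero => simp
    | succ i ih =>
      refine le_trans ?_ (hn i hi).le
      rw [Nat.cast_add_one, add_one_mul, add_comm, Real.exp_add, mul_assoc]
      exact mul_le_mul_of_nonneg_left (ih (by omega)) (Real.exp_pos _).le
  have h3 := h2 m le_rfl
  rw [mul_div_cancel₀ _ (Nat.cast_pos.2 hm).ne'] at h3
  have h4 := mul_lt_mul_of_pos_left h0 (Real.exp_pos u)
  rw [← Real.exp_add, add_neg_cancel, Real.exp_zero] at h4
  linarith

theorem adm_sub (hd : Adm S T A b t w q J n) {φ : ℕ → ℕ} (hφ : Tendsto φ atTop atTop) :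
    Adm S T A (fun k => b (φ k)) (fun k => t (φ k)) (fun k => w (φ k)) (fun k => q (φ k))
      (fun k => J (φ k)) fun k => n (φ k) :=
  ⟨fun _ => hd.q_pos _, fun _ => hd.w_pos _, hd.n_top.comp hφ, hd.J_top.comp hφ, hd.up.comp hφ,
    hd.lo.comp hφ, hd.band.comp hφ, hd.err.comp hφ, fun θ h0 h1 => (hd.gap θ h0 h1).comp hφ⟩

theorem emb_mul (E : Set Γ) (g g' : G) (c : ℝ) :
    emb S E (g * g') c (S.ζ 1) = emb S E g c (S.ζ g') := by
  rw [emb_ap, emb_ap, S.L_ζ, S.L_ζ, mul_one]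

section emb

variable (hS : Ex S) {Z : Subgroup G} {ι : ℕ → H →L[ℂ] H} (hE : Emb S len Z b ι) {J₀ N ε δ : ℝ}
include hS hE

theorem left_ev {h : G} (hh : h ∈ Z) (y : LB S len h J₀ N ε) (g : G) (hδ : 0 < δ) :
    ∀ᶠ k in atTop, ∀ E E' : Set Γ, (∀ γ s, len s ≤ J₀ → s * γ ∈ E → γ ∈ E') →
      ‖Pr S E (ι k (S.ζ (h * g)))‖ ≤ ‖Pr S E' (ι k (S.ζ g))‖ + (ε + δ) := by
  filter_upwards [hE.left h hh J₀ N ε y _ _ g hS.hm_one δ hδ] with k hk E E' h1
  change ‖ι k (S.L h (S.ζ g)) - y.op (ι k (S.ζ g))‖ ≤ _ at hk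
  rw [S.L_ζ] at hk
  rw [← add_sub_cancel (y.op (ι k (S.ζ g))) (ι k (S.ζ (h * g))), map_add]
  exact norm_add_le_of_le ((y.sup hS h1).norm_le' y.norm_le _) ((norm_Pr_le S _ _).trans hk)

theorem right_ev {s : G} (y : RB S len s J₀ N ε) (g : G) (hδ : 0 < δ) :
    ∀ᶠ k in atTop, ∀ E E' : Set Γ, (∀ γ s, len s ≤ J₀ → γ * s ∈ E → γ ∈ E') →
      ‖Pr S E (ι k (S.ζ (g * s)))‖ ≤ ‖Pr S E' (ι k (S.ζ g))‖ + (ε + δ) := by
  have m1 : ∀ i, y.r i g (S.ζ g) ∈ Dn S := fun i => by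
    simpa only [one_mul] using hm_mem hS (hS.hm_shift (y.hm i) g) (ζ_mem hS g)
  have m2 : S.ζ (g * s) - y.op g (S.ζ g) ∈ Dn S := by
    rw [RB.op, ContinuousLinearMap.sum_apply]
    exact sub_mem (ζ_mem hS _) (sum_mem fun i _ => m1 i)
  have h1 := (hE.iso _ m2 _ m2).norm.sqrt
  simp only [inner_self_eq_norm_sq_to_K, norm_pow, RCLike.norm_ofReal, abs_norm,
    Real.sqrt_sq (norm_nonneg _)] at h1
  have h2 := tendsto_finset_sum Finset.univ fun i _ =>
    hE.right _ _ (hS.hm_shift (y.hm i) g) _ (ζ_mem hS g)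
  rw [Finset.sum_const_zero] at h2
  have h3 : ‖S.ζ (g * s) - y.op g (S.ζ g)‖ < ε + δ / 2 := by
    rw [norm_sub_rev]; linarith [y.err_ζ g]
  filter_upwards [h1.eventually_lt_const h3, h2.eventually_lt_const (half_pos hδ)]
    with k a1 a2 E E' a3
  have a4 : ‖ι k (y.op g (S.ζ g)) - y.op (b k * g) (ι k (S.ζ g))‖ ≤ δ / 2 := by
    rw [RB.op, RB.op, ContinuousLinearMap.sum_apply, ContinuousLinearMap.sum_apply, map_sum,
      ← Finset.sum_sub_distrib]
    simp only [one_mul] at a2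
    exact (norm_sum_le _ _).trans a2.le
  have e : ι k (S.ζ (g * s)) = y.op (b k * g) (ι k (S.ζ g)) + (ι k (S.ζ (g * s) - y.op g (S.ζ g)) +
      (ι k (y.op g (S.ζ g)) - y.op (b k * g) (ι k (S.ζ g)))) := by rw [map_sub]; abel
  rw [e, map_add]
  refine norm_add_le_of_le ((y.sup hS a3 _).norm_le' (y.norm_le _) _)
    ((norm_Pr_le S _ _).trans ((norm_add_le_of_le a1.le a4).trans_eq (by ring)))

end emb

variable [TopologicalSpace G]

theorem ap_any (hT : Scale T) (hS : Ex S) (hG : Gp len gap C) (ht : S.Tail len T) {Q : Set G}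
    (hQ : IsCompact Q) {ε : ℝ} (hε : 0 < ε) : ∃ J N, ∀ h ∈ Q, Ap S len h J N ε := by
  obtain ⟨J, h1, h2⟩ := ((ap_tail hG ht hQ).and ((sm_exp' (l := atTop) (u := T)).ev_lt
    (T_top hT) hε)).exists
  exact ⟨J, _, fun h hh => (h1 h hh).mono hS le_rfl le_rfl h2.le⟩

theorem adm_move (hS : Ex S) (hG : Gp len gap C) (hA : Lev len C A) (ht : S.Tail len T)
    {Q : Set G} (hQ : IsCompact Q) (h1 : (1 : G) ∈ Q) (hi : ∀ g ∈ Q, g⁻¹ ∈ Q)
    (hd : Adm S T A b t w q J n) {g : ℕ → G} (hg : ∀ k, g k ∈ Q ^ n k) :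
    Adm S T A (fun k => b k * g k) t (fun k => w k / 2) q J n := by
  have hQ' : Q⁻¹ = Q := Set.ext fun x => ⟨fun h => by simpa using hi _ h, fun h => hi x h⟩
  have hg' : ∀ k, (g k)⁻¹ ∈ Q ^ n k := fun k => by
    rw [← hQ', inv_pow, Set.inv_mem_inv]; exact hg k
  have hC := hG.C_nonneg
  have e0 : Tendsto (fun k => ((n k : ℝ) + 1) * Real.exp (-T (J k)) / q k) atTop (𝓝 0) := by
    simpa only [add_one_mul, add_div, add_zero] using hd.err.add (eps_q hd)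
  have key : ∀ᶠ k in atTop, S.mass (A (t k - w k / 2)) (S.ζ (b k * g k)) ≤
      S.mass (A (t k - w k)) (S.ζ (b k)) + (n k + 1) * Real.exp (-T (J k)) ∧
      S.mass (A (t k + w k)) (S.ζ (b k)) ≤
        S.mass (A (t k + w k / 2)) (S.ζ (b k * g k)) + (n k + 1) * Real.exp (-T (J k)) := by
    filter_upwards [hd.J_top.eventually (ap_word hS hG ht hQ h1), band_ev hG hd 0, n_ge hd]
      with k a1 ⟨_, a2, a3, _⟩ a4
    have a5 : C * ((n k + 1) * J k) ≤ w k / 2 := le_trans (mul_le_mul_of_nonneg_left (by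
      nlinarith [(Nat.one_le_cast.2 a4 : (1 : ℝ) ≤ n k)]) hC) a3
    refine ⟨(a1 _ _ (hg k)).2.some.mass_le hS (fun γ s c1 c2 => hA.anti (by linarith)
      (hA.right hG.len_one hG.len_inv hC γ s c1 c2)) _, ?_⟩
    have a6 := (a1 _ _ (hg' k)).2.some.mass_le hS (E := A (t k + w k)) (E' := A (t k + w k / 2))
      (fun γ s c1 c2 => hA.anti (by linarith) (hA.right hG.len_one hG.len_inv hC γ s c1 c2))
      (b k * g k)
    rwa [mul_inv_cancel_right] at a6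
  have l1 := hd.lo.sub e0
  have l2 := hd.up.add e0
  rw [sub_zero] at l1
  rw [add_zero] at l2
  have k1 := key.mono fun k h => (div_le_div_of_nonneg_right h.1 (hd.q_pos k).le).trans_eq
    (add_div _ _ _)
  have k2 := key.mono fun k h => sub_le_iff_le_add.2
    ((div_le_div_of_nonneg_right h.2 (hd.q_pos k).le).trans_eq (add_div _ _ _))
  have k3 : ∀ k, S.mass (A (t k + w k / 2)) (S.ζ (b k * g k)) / q k ≤
      S.mass (A (t k - w k / 2)) (S.ζ (b k * g k)) / q k := fun k =>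
    div_le_div_of_nonneg_right (Pr_mono S (hA.anti (by linarith [hd.w_pos k])) _) (hd.q_pos k).le
  refine ⟨hd.q_pos, fun k => half_pos (hd.w_pos k), hd.n_top, hd.J_top,
    tendsto_of_tendsto_of_tendsto_of_le_of_le' l1 l2 (k2.mono fun k h => h.trans (k3 k)) k1,
    tendsto_of_tendsto_of_tendsto_of_le_of_le' l1 l2 k2 (k1.mono fun k h => (k3 k).trans h),
    ?_, hd.err, hd.gap⟩
  simpa only [div_div_eq_mul_div, zero_mul, div_mul_eq_mul_div] using hd.band.mul_const 2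

end Vale.Agent.P092UU
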