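import Vale.Agent.P092UU.Adm

/-!
P092 (helper44), block B4, UB: the upper bound for the number of large gaps on a face.
-/

set_option linter.all false

open Filter Topology Asymptotics MeasureTheory
open scoped InnerProductSpace Pointwise

namespace Vale.Agent.P092UU

open Vale.Agent.P092WN Vale.Agent.P092NW Vale.Agent.P092CR Vale.Agent.P092OM

variable {G Γ H H₀ : Type} [Group G] [TopologicalSpace G] [Group Γ] [NormedAddCommGroup H]
  [InnerProductSpace ℂ H] [CompleteSpace H] [NormedAddCommGroup H₀] [InnerProductSpace ℂ H₀]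
  {S : Sys G Γ H H₀} {len : Γ → ℝ} {r' : ℕ} {gap : Fin r' → Γ → ℝ} {C : ℝ} {T : ℝ → ℝ}
  {G' : Type} [Group G'] [TopologicalSpace G'] [IsTopologicalGroup G'] [MeasurableSpace G']
  [OpensMeasurableSpace G'] [T2Space G'] {μ' : Measure G'} [IsFiniteMeasureOnCompacts μ']
  {e : Γ →* G'} {c₀ : ℝ} {d r : ℕ} {a : (Fin r → ℤ) → G} {Q : Set G} {c : ℝ}
  {A : ℝ → Set Γ} {b : ℕ → G} {t w q J τ : ℕ → ℝ} {n : ℕ → ℕ} {Θ : Finset (Fin r')} {c₁ : ℝ}

/-- the invariant on the `i`-th face -/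
structure Iv (S : Sys G Γ H H₀) (gap : Fin r' → Γ → ℝ) (a : (Fin r → ℤ) → G) (T : ℝ → ℝ)
    (A : ℝ → Set Γ) (i : ℕ) (b : ℕ → G) (t w q J : ℕ → ℝ) (n : ℕ → ℕ) (Θ : Finset (Fin r'))
    (τ : ℕ → ℝ) (c₁ : ℝ) : Prop where
  adm : Adm S T A b t w q J n
  face : ∀ k, b k ∈ Face a i
  card : Θ.card = i + 1
  top : Tendsto τ atTop atTop
  pos : 0 < c₁
  low : ∀ k, c₁ ≤ ‖Pr S (Big gap Θ (τ k)) (emb S (A (t k)) (b k) (q k) (S.ζ 1))‖

/-- a further gap is large -/
def NB (gap : Fin r' → Γ → ℝ) (Θ : Finset (Fin r')) (τ R : ℝ) : Set Γ :=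
  Big gap Θ τ ∩ (Oth gap Θ R)ᶜ

theorem nb_of (hG : Gp len gap C) {γ γ' : Γ} {x R D : ℝ} (h : ∀ i, |gap i γ' - gap i γ| ≤ D)
    (h1 : γ' ∈ NB gap Θ x R) : γ ∈ NB gap Θ (x - D) (R - D) :=
  ⟨fun i hi => by linarith [h1.1 i hi, (abs_le.1 (h i)).2],
    fun h2 => h1.2 fun i hi => by linarith [h2 i hi, (abs_le.1 (h i)).2]⟩

variable (hT : Scale T) (hS : Ex S) (hG : Gp len gap C) (hgeo : Geo μ' e len gap C c₀ d)
  (hs : Src S μ' e a Q c) (ht : S.Tail len T) (hA : Lev len C A)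

include hT hs in
theorem small_ev (R : ℝ) {δ : ℝ} (hδ : 0 < δ) : ∀ᶠ N : ℕ in atTop,
    2 * Real.exp (-(c / 2 * N)) * √(Real.exp (C * R) * ((((N + 2 : ℕ) : ℝ) + 1) * N) ^ d * (C + 1)) +
      C * ((((N + 2 : ℕ) : ℝ) + 1) * Real.exp (-T N)) < δ := by
  have tt := t_top hT nat_top
  have h1 : (fun N : ℕ => ((N + 2 : ℕ) : ℝ) + 1) =O[atTop] fun N : ℕ => T^[0] (N : ℝ) := by
    simpa only [Nat.cast_add, Nat.cast_ofNat] using
      add_one_O (tt 0) (add_one_O nat_top (isBigO_refl _ _) 2) 1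
  have h2 := md_O hT nat_top 1 h1
  exact ((((Md.const (tt 1) 2).mul_sm (Sm.up hT nat_top zero_le_one
    (sm_exp (half_pos hs.c_pos)))).mul ((((Md.const (tt 1) _).mul
    ((h2.mul (md_x hT nat_top 1)).pow (tt 1) d)).mul (Md.const (tt 1) _)).sqrt (tt 1))).add (tt 1)
    ((Md.const (tt 1) C).mul_sm (h2.mul_sm sm_exp'))).ev_lt (tt 1) hδ

include hT hS hG hgeo hs ht hA in
theorem create (j : Fin r) (h : Iv S gap a T A j b t w q J n Θ τ c₁) :
    ∃ D : ℝ, ∀ R : ℝ, 1 ≤ R → ∃ (N : ℕ) (D' : ℝ), ∃ᶠ k in atTop, c₁ / 4 ≤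
      ‖Pr S (NB gap Θ (τ k - D') (R - D))
        (emb S (A (t k)) (b k) (q k) (S.ζ (a (Pi.single j (N : ℤ)))))‖ := by
  obtain ⟨p₀, s₀, hp₀, hs₀, θ, h0, h1, hθ⟩ := hs.gap j
  have hE := emb_of_adm hS hG hA ht (Z := Cz a j) (fun z hz k => cz_comm hz (h.face k))
    (fun l => (hs₀ l).2) hp₀ h0 h1 hθ h.adm
  have hc := h.pos
  have hc₀ := hgeo.1
  have h16 : 0 < c₁ / 16 := by positivity
  obtain ⟨J₄, N₄, y₄⟩ := ap_any hT hS hG ht hs.cpt h16
  refine ⟨C * J₄ + C * J₄, fun R hR => ?_⟩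
  have hδ : 0 < c₀ * (c₁ / 4) ^ 2 / 2 := by positivity
  obtain ⟨N, ⟨p, κ, κ', hp, hκ, hP⟩, a1, a2, a3⟩ := ((hs.fam j).and
    ((nat_top.eventually (ap_word hS hG ht hs.cpt hs.one)).and
    ((small_ev (C := C) (d := d) hT hs R hδ).and (eventually_ge_atTop 1)))).exists
  have hJ : (1 : ℝ) ≤ (((N + 2 : ℕ) : ℝ) + 1) * N := one_le_mul_of_one_le_of_one_le
    (by linarith [(Nat.cast_nonneg (N + 2) : (0 : ℝ) ≤ _)]) (Nat.one_le_cast.2 a3)
  obtain ⟨B, B', ψ, F, hD⟩ := hgeo.2 Θ _ R hJ hR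
  have hz : ∀ l, κ l * a (Pi.single j (N : ℤ)) * κ' l ∈ Cz a j := fun l =>
    mul_mem (mul_mem (hκ l).2.2.1 (hs.a_mem_Cz _ _)) (hκ l).2.2.2
  obtain ⟨J₃, N₃, y₃⟩ := ap_any hT hS hG ht
    (Set.finite_range fun l => (κ l * a (Pi.single j (N : ℤ)) * κ' l)⁻¹).isCompact h16
  have hp0 : (0 : ℝ) < p := (Real.exp_pos _).trans_le hp
  have k0 := cre hS hG hE hD hJ hR (tendsto_atTop_add_const_right _ (-(C * J₃)) h.top) hz
    (Nat.cast_pos.1 hp0) hP (fun l => (a1 _ _ (hs.word_mem j N (hκ l).1 (hκ l).2.1)).2.some)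
    (fun l ε hε => by
      obtain ⟨J₂, N₂, y⟩ := ap_any hT hS hG ht isCompact_singleton hε
      exact ⟨J₂, N₂, (y _ rfl).1⟩) hδ
  refine ⟨N, C * J₃ + C * J₄ + C * J₄, (k0.and_eventually ((eventually_all.2 fun l =>
    left_ev hS hE (inv_mem (hz l)) (y₃ _ ⟨l, rfl⟩).1.some
      (κ l * a (Pi.single j (N : ℤ)) * κ' l) h16).and ((eventually_all.2 fun l =>
    left_ev hS hE (hκ l).2.2.1 (y₄ _ (hκ l).1).1.some (a (Pi.single j (N : ℤ)) * κ' l) h16).and
    (eventually_all.2 fun l => right_ev hS hE (y₄ _ (hκ l).2.1).2.some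
      (a (Pi.single j (N : ℤ))) h16)))).mono fun k ⟨b0, b1, b2, b3⟩ => ?_⟩
  obtain ⟨l, hl⟩ := exists_avg_le hp0 hc₀ (one_div_sqrt_le hp) (Real.sqrt_nonneg _) b0
  have c1 := (pow_le_pow_iff_left₀ (norm_nonneg _) (by positivity) two_ne_zero).1
    (hl.trans (show _ ≤ (c₁ / 4) ^ 2 from (inv_mul_le_iff₀ hc₀).2 (by linarith)))
  have c2 := b1 l _ _ ((hG.lev_big Θ).left (t := τ k) hG.len_one hG.len_inv hG.C_nonneg)
  have c3 := b2 l (NB gap Θ (τ k - C * J₃) R) _ fun γ s hs => nb_of hG fun i => hG.lipL i hs γ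
  have c4 := b3 l (NB gap Θ (τ k - C * J₃ - C * J₄) (R - C * J₄)) _
    fun γ s hs => nb_of hG fun i => hG.lipR i hs γ
  rw [inv_mul_cancel] at c2
  rw [← mul_assoc] at c3
  rw [← sub_eq_add_neg] at c1
  rw [sub_sub, sub_sub, sub_sub] at c4
  have c5 := Pr_sub_union S (Set.inter_union_compl (Big gap Θ (τ k - C * J₃)) (Oth gap Θ R)).ge
    (emb S (A (t k)) (b k) (q k) (S.ζ (κ l * a (Pi.single j (N : ℤ)) * κ' l)))
  have c6 := h.low k
  rw [sub_sub] at c3
  change _ ≤ _ + ‖Pr S (NB gap Θ _ _) _‖ at c5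
  linarith

include hT hS hG hgeo hs ht hA in
theorem iv_step (j : Fin r) (h : Iv S gap a T A j b t w q J n Θ τ c₁) :
    ∃ b t w q J n Θ τ c₁, Iv S gap a T A (j + 1) b t w q J n Θ τ c₁ := by
  obtain ⟨D, hD⟩ := create hT hS hG hgeo hs ht hA j h
  choose N D' hN using fun m : ℕ => hD (m + 1) (le_add_of_nonneg_left m.cast_nonneg)
  choose φ h1 h2 h3 h4 using fun m : ℕ => ((hN m).and_eventually ((eventually_ge_atTop m).and
    ((h.top.eventually_ge_atTop (m + D' m)).and (h.adm.n_top.eventually_ge_atTop (N m))))).exists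
  have hφ : Tendsto φ atTop atTop := tendsto_atTop_mono h2 tendsto_id
  have hd := adm_move hS hG hA ht hs.cpt hs.one hs.inv (adm_sub h.adm hφ)
    fun m => Set.pow_subset_pow_right hs.one (h4 m) (hs.single_mem j (N m))
  obtain ⟨i, ψ, hψ, hi⟩ := exists_sub fun m => exists_piece (S := S) Θᶜ
    (E := fun i => Big gap (insert i Θ) (m - |D|)) (fun γ hγ => by
      obtain ⟨i, a1, a2⟩ : ∃ i, i ∉ Θ ∧ m + 1 - D < gap i γ := by
        simpa [Oth] using hγ.2
      refine Set.mem_iUnion₂.2 ⟨i, Finset.mem_compl.2 a1, fun i' hi' => ?_⟩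
      rcases Finset.mem_insert.1 hi' with rfl | a3
      · linarith [neg_abs_le D, le_abs_self D]
      · linarith [hγ.1 i' a3, h3 m, abs_nonneg D]) (by linarith [h.pos]) (h1 m)
  have := h.pos
  refine ⟨_, _, _, _, _, _, insert i Θ, fun m => ψ m - |D|, c₁ / 4 / (Fintype.card (Fin r') + 1),
    adm_sub hd hψ, fun m => ?_,
    by rw [Finset.card_insert_of_notMem (Finset.mem_compl.1 (hi 0).1), h.card],
    tendsto_atTop_add_const_right _ _ (nat_top.comp hψ), by positivity, fun m => ?_⟩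
  · obtain ⟨u, hu, e1⟩ := h.face (φ (ψ m))
    refine ⟨u + Pi.single j (N (ψ m) : ℤ), fun i' hi' => ?_, by rw [hs.add, e1]⟩
    rw [Pi.add_apply, hu i' (by omega), Pi.single_eq_of_ne (Fin.ne_of_val_ne (by omega)), add_zero]
  · rw [emb_mul]; exact (hi m).2

include hT hS hG in
theorem iv_start (j : ℕ) (h : ¬∀ᶠ x in atTop, ∀ g ∈ Face a j,
    S.mass (Many gap (j + 1) x) (S.ζ g) ≤ Real.exp (-T^[6] x)) :
    ∃ b t w q J n Θ τ c₁, Iv S gap a T (Many gap (j + 1)) j b t w q J n Θ τ c₁ := by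
  have hA := hG.lev_many (j + 1)
  obtain ⟨x, hx, h1⟩ := exists_seq_forall_of_frequently ((not_eventually.1 h).and_eventually
    (((it_top hT 1).eventually_gt_atTop 0).and ((it_top hT 5).eventually_gt_atTop 0)))
  simp only [not_forall, not_le] at h1
  choose g hg h2 using fun k => (h1 k).1
  have tt := t_top hT hx
  have hw := fun k => (h1 k).2.1
  choose i hi h3 using fun k => exists_win (M := fun i => S.mass (Many gap (j + 1)
    (x k - 2 * i * T^[1] (x k))) (S.ζ (g k))) (Nat.ceil_pos.2 (h1 k).2.2)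
    (by simpa using h2 k) ((norm_Pr_le S _ _).trans (S.ζ_norm _))
  let t : ℕ → ℝ := fun k => x k - 2 * i k * T^[1] (x k) - T^[1] (x k)
  let q : ℕ → ℝ := fun k => S.mass (Many gap (j + 1) (t k)) (S.ζ (g k))
  have mono : ∀ k {y z : ℝ}, y ≤ z → S.mass (Many gap (j + 1) z) (S.ζ (g k)) ≤
      S.mass (Many gap (j + 1) y) (S.ζ (g k)) := fun k _ _ h => Pr_mono S (hA.anti h) _
  have q1 : ∀ k, Real.exp (-T^[6] (x k)) ≤ q k := fun k => (h2 k).le.trans (mono k (by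
    nlinarith [hw k, mul_nonneg (i k).cast_nonneg (hw k).le]))
  have q0 : ∀ k, 0 < q k := fun k => (Real.exp_pos _).trans_le (q1 k)
  have q2 : ∀ k {y : ℝ}, 0 ≤ y → y / q k ≤ y * Real.exp (T^[6] (x k)) := fun k y hy =>
    (div_le_div_of_nonneg_left hy (Real.exp_pos _) (q1 k)).trans_eq (by
      rw [Real.exp_neg, div_inv_eq_mul])
  have h4 : ∀ k, S.mass (Many gap (j + 1) (t k - T^[1] (x k))) (S.ζ (g k)) ≤
      Real.exp (T^[6] (x k) / ⌈T^[5] (x k)⌉₊) *
        S.mass (Many gap (j + 1) (t k + T^[1] (x k))) (S.ζ (g k)) := fun k => by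
    have := h3 k
    rwa [show x k - 2 * ((i k + 1 : ℕ) : ℝ) * T^[1] (x k) = t k - T^[1] (x k) by
      simp only [t]; push_cast; ring, ← sub_add_cancel (x k - 2 * i k * _) (T^[1] (x k))] at this
  have h5 : Tendsto (fun k => Real.exp (T^[6] (x k) / ⌈T^[5] (x k)⌉₊)) atTop (𝓝 1) := by
    rw [← Real.exp_zero]
    refine (Real.continuous_exp.tendsto 0).comp (((t_succ hT hx 5).trans_isBigO
      (IsBigO.of_bound' (.of_forall fun k => ?_))).tendsto_div_nhds_zero)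
    rw [Real.norm_of_nonneg (h1 k).2.2.le, Real.norm_of_nonneg (Nat.cast_nonneg _)]
    exact Nat.le_ceil _
  have h6 := h5.inv₀ one_ne_zero
  rw [inv_one] at h6
  have c3 := ceil_O hT hx 3
  have hd : Adm S T (Many gap (j + 1)) g t (fun k => T^[1] (x k)) q (fun k => T^[3] (x k))
      fun k => ⌈T^[3] (x k)⌉₊ := by
    refine ⟨q0, hw, tendsto_nat_ceil_atTop.comp (tt 3), tt 3,
      tendsto_of_tendsto_of_tendsto_of_le_of_le tendsto_const_nhds h5
        (fun k => (one_le_div (q0 k)).2 (mono k (by linarith [hw k]))) fun k =>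
        (div_le_iff₀ (q0 k)).2 ((h4 k).trans (mul_le_mul_of_nonneg_left
          (mono k (by linarith [hw k])) (Real.exp_pos _).le)),
      tendsto_of_tendsto_of_tendsto_of_le_of_le h6 tendsto_const_nhds (fun k =>
        (le_div_iff₀ (q0 k)).2 ((inv_mul_le_iff₀ (Real.exp_pos _)).2
          ((mono k (by linarith [hw k])).trans (h4 k))))
        fun k => (div_le_one (q0 k)).2 (mono k (by linarith [hw k])),
      (t_mul hT hx (show 1 < 3 by omega) c3 (isBigO_refl _ _)).tendsto_div_nhds_zero, ?_,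
      fun θ a0 a1 => ?_⟩
    · simp only [T_it]
      exact squeeze_zero (fun k => by have := q0 k; positivity) (fun k => q2 k (by positivity))
        ((((md_O hT hx 4 c3).mul_sm sm_exp').mul
          (Md.exp (tt 4) (t_o hT hx (show 4 < 6 by omega)))).tendsto (tt 4))
    · refine squeeze_zero (fun k => by have := q0 k; positivity) (fun k => (q2 k
        (by positivity)).trans (mul_le_mul_of_nonneg_right ?_ (Real.exp_pos _).le))
        (((sm_exp (sub_pos.2 a1)).mul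
          (Md.exp (tt 3) (t_o hT hx (show 3 < 6 by omega)))).tendsto (tt 3))
      refine (pow_le_pow_left₀ a0 (show θ ≤ Real.exp (-(1 - θ)) by
        linarith [Real.add_one_le_exp (-(1 - θ))]) _).trans ?_
      rw [← Real.exp_nat_mul]
      exact Real.exp_le_exp.2 (by nlinarith [Nat.le_ceil (T^[3] (x k))])
  have ht : Tendsto t atTop atTop := by
    refine tendsto_atTop_mono' _ ?_ (hx.const_mul_atTop (show (0 : ℝ) < 1 / 2 by norm_num))
    filter_upwards [lo_le (tt 0) (t_mul hT hx zero_lt_one ((ceil_O hT hx 5).trans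
      (t_O hT hx (by omega))) (isBigO_refl _ _)) (show (0 : ℝ) < 1 / 4 by norm_num)] with k hk
    have a1 : (i k : ℝ) + 1 ≤ ⌈T^[5] (x k)⌉₊ := by exact_mod_cast hi k
    have a2 := (mul_le_mul_of_nonneg_right a1 (hw k).le).trans ((le_abs_self _).trans hk)
    change _ ≤ 1 / 4 * x k at a2
    simp only [t]
    linarith [hw k]
  obtain ⟨Θ, ψ, hψ, hΘ⟩ := exists_sub fun k => exists_piece (S := S)
    (Finset.univ.filter fun Θ : Finset (Fin r') => Θ.card = j + 1) (E := fun Θ => Big gap Θ (t k))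
    (F := Many gap (j + 1) (t k)) (fun γ ⟨Θ, a1, a2⟩ => Set.mem_iUnion₂.2 ⟨Θ, by simp [a1], a2⟩)
    (v := emb S (Many gap (j + 1) (t k)) (g k) (q k) (S.ζ 1)) one_pos (by
      rw [emb_ap, map_smul, hS.Pr_idem, norm_resc (q0 k), S.L_ζ, mul_one]
      exact (div_self (q0 k).ne').ge)
  exact ⟨_, _, _, _, _, _, Θ, _, _, adm_sub hd hψ, fun k => hg _, (Finset.mem_filter.1 (hΘ 0).1).2,
    ht.comp hψ, by positivity, fun k => (hΘ k).2⟩

include hT hS hG hgeo hs ht in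
/-- **The upper bound.** -/
theorem ubs (hr : r' ≤ r) : UBs S gap a T := fun j hj => by
  by_contra h
  have key : ∀ i, j ≤ i → i ≤ r →
      ∃ b t w q J n Θ τ c₁, Iv S gap a T (Many gap (j + 1)) i b t w q J n Θ τ c₁ := fun i hi => by
    induction i, hi using Nat.le_induction with
    | base => exact fun _ => iv_start hT hS hG j h
    | succ i _ ih =>
      intro hi
      obtain ⟨_, _, _, _, _, _, _, _, _, h1⟩ := ih (by omega)
      exact iv_step hT hS hG hgeo hs ht (hG.lev_many _) ⟨i, hi⟩ h1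
  obtain ⟨_, _, _, _, _, _, Θ, _, _, h1⟩ := key r hj le_rfl
  have h2 := Finset.card_le_univ Θ
  rw [h1.card, Fintype.card_fin] at h2
  omega

include hT hS hG hgeo hs ht in
/-- **Near wall rate.** -/
theorem nearWall (hr : r' ≤ r) :
    r' = r ∧ ∃ (k : ℕ) (n : Fin r → ℕ → ℕ), (∀ i, Clock (n i)) ∧
      (∀ i, ∀ᶠ N : ℕ in atTop, T^[k + 1] N ≤ n i N) ∧
      ∀ i, S.NearWall (gap i) T^[k + 1] fun N => a fun i => (n i N : ℤ) :=
  nearWall_of hT hS hG hgeo hs hr ht (ubs hT hS hG hgeo hs ht hr)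

end Vale.Agent.P092UU
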